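import Vale.Agent.P080.OneSided

/-!
# P080: one-sided and one-ray flat Liouville theorems in every dimension
-/

namespace Vale.Agent.Results.P080.OneSidedLiouville

open scoped RealInnerProductSpace

/-- An entire infinity-harmonic function is affine if it lies on one side of a linear map up to
`O((1+|x|)^(1/300))`, or if it is `L`-Lipschitz and attains the slope `L` along a single ray up to
`O((1+t)^(1/300))`. -/
theorem result (d : ℕ) (u : EuclideanSpace ℝ (Fin d) → ℝ)
    (hu : Vale.Agent.P080.InfHarmonic u) :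
    (∀ (b : EuclideanSpace ℝ (Fin d)) (C : ℝ),
      ((∀ x, u x ≤ ⟪b, x⟫ + C * (1 + ‖x‖) ^ (1 / 300 : ℝ)) ∨
        (∀ x, ⟪b, x⟫ - C * (1 + ‖x‖) ^ (1 / 300 : ℝ) ≤ u x)) →
      ∀ x, u x = ⟪b, x⟫ + u 0) ∧
    (∀ (L C : ℝ) (e p : EuclideanSpace ℝ (Fin d)), 0 < L → ‖e‖ = 1 →
      (∀ x y, |u y - u x| ≤ L * ‖y - x‖) →
      (∀ t : ℝ, 0 ≤ t → u p + L * t - C * (1 + t) ^ (1 / 300 : ℝ) ≤ u (p + t • e)) →
      ∀ x, u x = ⟪L • e, x⟫ + u 0) := by
  refine ⟨fun b C hg x => ?_, fun L C e p hL he hlip hray x => ?_⟩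
  · rcases hg with h | h
    · exact Vale.Agent.P080.eq_affine_of_upper hu b C h x
    · exact Vale.Agent.P080.eq_affine_of_lower hu b C h x
  · exact Vale.Agent.P080.eq_affine_of_ray hu hL
      (fun y z => (le_abs_self _).trans (hlip y z)) he p C hray x

end Vale.Agent.Results.P080.OneSidedLiouville
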